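import Crest.Agent.Kac.BF

/-! K16: proofs of `BF.h1`, `BF.h2`. -/

set_option autoImplicit false
open Set

namespace Crest.Agent.Kac

namespace BF

variable {P0 : ℝ → ℝ → ℝ} {p ϵ K0 B Bw C2 Cκ m0 b0 β1 : ℝ}

theorem h1_pf (h : BF P0 p ϵ K0 B Bw C2 Cκ m0 b0 β1) (μ : ℝ) :
    (∀ ρ, 0 ≤ ρ → ρ ≤ ϵ → V0 P0 p (β1, μ) ρ + 1 ≤ V0 P0 p (β1, μ) m0) ∨
    (∀ ρ, 3 * p / 2 ≤ ρ → V0 P0 p (β1, μ) ρ + 1 ≤ V0 P0 p (β1, μ) m0) := by
  obtain ⟨hB, hϵ, hβ, hβ0⟩ := h.sizes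
  have hp1 := h.p1
  have hp8 := h.p8
  have hϵ0 := h.ϵ_pos
  have hC2 := h.C2_nn
  have hCκ := h.Cκ_nn
  have hm1 := h.m0_lo
  have hm2 := h.m0_hi
  have hU1 := h.U1 β1 hβ0.le
  have hp0 : 0 < p := by linarith
  set τ : ℝ := 19 / (20 * p) with hτ
  have hτp : τ * p = 19 / 20 := by rw [hτ]; field_simp
  have hτ0 : 0 < τ := by positivity
  have hτ1 : τ ≤ 19 / 20 := by nlinarith
  have hτm : 949 / 1000 ≤ τ * m0 := by nlinarith
  by_cases hμ : -(47 / 100) * β1 ≤ μ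
  · left
    intro ρ hρ0 hρ
    have hP := h.le_one β1 hβ0.le ρ hρ0
    simp only [V0]
    have h3 : 474 / 1000 ≤ τ * (m0 + ρ) / 2 := by nlinarith
    have h4 : (4 / 1000) * β1 ≤ μ + β1 * (τ * (m0 + ρ) / 2) := by nlinarith
    have h5 : 9 / 10 ≤ m0 - ρ := by linarith
    have h6 : 9 / 10 * ((4 / 1000) * β1) ≤ (m0 - ρ) * (μ + β1 * (τ * (m0 + ρ) / 2)) :=
      mul_le_mul h5 h4 (by positivity) (by linarith)
    have e : (m0 - ρ) * (μ + β1 * (τ * (m0 + ρ) / 2)) =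
        (μ * m0 + β1 * τ * m0 ^ 2 / 2) - (μ * ρ + β1 * τ * ρ ^ 2 / 2) := by ring
    rw [e] at h6
    linarith
  · right
    push Not at hμ
    intro ρ hρ
    have hρ0 : 0 ≤ ρ := by linarith
    have hL := h.L3 ρ hρ0
    simp only [V0]
    set R : ℝ := ρ ^ 2 / p with hR
    have e1 : β1 * τ * ρ ^ 2 / 2 = β1 * (19 / 40) * R := by
      rw [hτ, hR]; field_simp; ring
    have e2 : (1 - 1 / 200) * ρ ^ 2 / p = (199 / 200) * R := by
      rw [hR]; ring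
    rw [e2] at hL
    rw [e1]
    have hR1 : 3 * ρ - 9 / 4 * p ≤ R := by
      rw [hR, le_div_iff₀ hp0]
      nlinarith [sq_nonneg (ρ - 3 / 2 * p)]
    -- the `m0` part
    have hM : (5 / 1000) * p - 1 / 1000000 ≤ -(47 / 100) * m0 + τ * m0 ^ 2 / 2 := by
      have e3 : (5 / 1000) * p = -(47 / 100) * p + τ * p ^ 2 / 2 := by
        have : τ * p ^ 2 = 19 / 20 * p := by rw [← hτp]; ring
        rw [this]; ring
      have h7 : τ * p ^ 2 / 2 - τ * m0 ^ 2 / 2 ≤ 1 / 1000000 := by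
        have h8 : τ * p ^ 2 / 2 - τ * m0 ^ 2 / 2 = τ * (p + m0) / 2 * (p - m0) := by ring
        have h9 : τ * (p + m0) / 2 ≤ 19 / 20 := by nlinarith
        have h10 : p - m0 ≤ 1 / 1000000 := by linarith
        rw [h8]
        calc τ * (p + m0) / 2 * (p - m0) ≤ 1 * (1 / 1000000) :=
              mul_le_mul (by linarith) h10 (by linarith) (by norm_num)
          _ = 1 / 1000000 := by norm_num
      rw [e3]
      linarith
    have h11 : 1 / 100 ≤ (47 / 100) * (ρ - m0) + τ * m0 ^ 2 / 2 - ρ / 2 + (9 / 400) * R := by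
      linarith
    have h12 : β1 * (1 / 100) ≤ β1 * ((47 / 100) * (ρ - m0) + τ * m0 ^ 2 / 2 - ρ / 2 + (9 / 400) * R) :=
      mul_le_mul_of_nonneg_left h11 hβ0.le
    have h13 : (47 / 100) * β1 * (ρ - m0) ≤ -μ * (ρ - m0) :=
      mul_le_mul_of_nonneg_right (by linarith) (by linarith)
    have e4 : β1 * ((47 / 100) * (ρ - m0) + τ * m0 ^ 2 / 2 - ρ / 2 + (9 / 400) * R) =
        (47 / 100) * β1 * (ρ - m0) + β1 * τ * m0 ^ 2 / 2 - β1 / 2 * ρ + β1 * (9 / 400) * R := by ring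
    rw [e4] at h12
    have e5 : β1 / 2 * ((199 / 200) * R - ρ) = β1 * (199 / 400) * R - β1 / 2 * ρ := by ring
    rw [e5] at hL
    have e6 : -μ * (ρ - m0) = μ * m0 - μ * ρ := by ring
    rw [e6] at h13
    have e7 : β1 * (199 / 400) * R = β1 * (19 / 40) * R + β1 * (9 / 400) * R := by ring
    linarith

theorem h2_pf (h : BF P0 p ϵ K0 B Bw C2 Cκ m0 b0 β1) (μ : ℝ) :
    (∀ ρ, p - ϵ ≤ ρ → ρ ≤ p + ϵ → V0 P0 p (B * β1, μ) ρ + 1 ≤ V0 P0 p (B * β1, μ) 0) ∨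
    (∀ ρ, p - ϵ ≤ ρ → ρ ≤ p + ϵ → V0 P0 p (B * β1, μ) ρ + 1 ≤ V0 P0 p (B * β1, μ) b0) := by
  obtain ⟨hB, hϵ, hβ, hβ0⟩ := h.sizes
  have hp1 := h.p1
  have hp8 := h.p8
  have hϵ0 := h.ϵ_pos
  have hC2 := h.C2_nn
  have hCκ := h.Cκ_nn
  have hb1 := h.b0_lo
  have hb2 := h.b0_hi
  have hBw := h.Bw_nn
  have hp0 : 0 < p := by linarith
  have hb0 : 0 < b0 := by linarith
  have hβ2 : 0 < B * β1 := by positivity
  have hU3 := h.U3 (B * β1) hβ2.le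
  have hz : V0 P0 p (B * β1, μ) 0 = 0 := by
    simp [V0, h.zero (B * β1) hβ2.le]
  set τ : ℝ := 19 / (20 * p) with hτ
  have hτp : τ * p = 19 / 20 := by rw [hτ]; field_simp
  have hτ0 : 0 < τ := by positivity
  have hτ1 : τ ≤ 19 / 20 := by nlinarith
  -- key estimate
  have key : ∀ ρ, p - ϵ ≤ ρ → ρ ≤ p + ϵ →
      V0 P0 p (B * β1, μ) ρ + 1 ≤ ρ / b0 * V0 P0 p (B * β1, μ) b0 := by
    intro ρ hρ1 hρ2
    have hρ0 : 0 < ρ := by linarith
    have hP := h.le_one (B * β1) hβ2.le ρ hρ0.le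
    have hlow : μ * b0 + (-(B * β1 * (91 / 100) * b0 / 2) - C2 - 3 * (b0 / 2) * (Bw * β1)) +
        B * β1 * τ * b0 ^ 2 / 2 ≤ V0 P0 p (B * β1, μ) b0 := by
      simp only [V0]
      linarith
    have h1 : ρ / b0 * (μ * b0 + (-(B * β1 * (91 / 100) * b0 / 2) - C2 -
        3 * (b0 / 2) * (Bw * β1)) + B * β1 * τ * b0 ^ 2 / 2) ≤
        ρ / b0 * V0 P0 p (B * β1, μ) b0 :=
      mul_le_mul_of_nonneg_left hlow (by positivity)
    refine le_trans ?_ h1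
    have e1 : ρ / b0 * (μ * b0 + (-(B * β1 * (91 / 100) * b0 / 2) - C2 -
        3 * (b0 / 2) * (Bw * β1)) + B * β1 * τ * b0 ^ 2 / 2) =
        μ * ρ - B * β1 * (91 / 200) * ρ - ρ / b0 * C2 - 3 / 2 * ρ * (Bw * β1) +
          B * β1 * τ * ρ * b0 / 2 := by
      field_simp
      ring
    rw [e1]
    have hlam : ρ / b0 ≤ 1 := by
      rw [div_le_one hb0]; linarith
    have h2 : ρ / b0 * C2 ≤ C2 := mul_le_of_le_one_left hC2 hlam
    have h3 : 465 / 1000 ≤ τ * (b0 - ρ) / 2 := by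
      have h4 : τ * (p * (98 / 100) - ϵ) ≤ τ * (b0 - ρ) :=
        mul_le_mul_of_nonneg_left (by linarith) hτ0.le
      have h5 : τ * (p * (98 / 100) - ϵ) = 19 / 20 * (98 / 100) - τ * ϵ := by
        rw [← hτp]; ring
      have h6 : τ * ϵ ≤ 1 * ϵ := mul_le_mul_of_nonneg_right (by linarith) hϵ0.le
      linarith
    have h7 : (1 / 100) * (B * β1) ≤ B * β1 * (τ * (b0 - ρ) / 2 - 91 / 200) := by
      have : 1 / 100 ≤ τ * (b0 - ρ) / 2 - 91 / 200 := by linarith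
      nlinarith
    have h8 : (1 / 100) * (B * β1) = 2 * (Bw + 1) * β1 := by
      rw [h.B_eq]; ring
    have h9 : (2 * β1 + 1 / 2 * Bw * β1) ≤
        B * β1 * (τ * (b0 - ρ) / 2 - 91 / 200) - 3 / 2 * (Bw * β1) := by
      rw [h8] at h7
      linarith
    have h10 : 2 * β1 ≤ B * β1 * (τ * (b0 - ρ) / 2 - 91 / 200) - 3 / 2 * (Bw * β1) := by
      have : 0 ≤ 1 / 2 * Bw * β1 := by positivity
      linarith
    have h11 : (1 / 2) * (2 * β1) ≤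
        ρ * (B * β1 * (τ * (b0 - ρ) / 2 - 91 / 200) - 3 / 2 * (Bw * β1)) :=
      mul_le_mul (by linarith) h10 (by positivity) hρ0.le
    have e2 : ρ * (B * β1 * (τ * (b0 - ρ) / 2 - 91 / 200) - 3 / 2 * (Bw * β1)) =
        (- B * β1 * (91 / 200) * ρ - 3 / 2 * ρ * (Bw * β1) + B * β1 * τ * ρ * b0 / 2) -
          B * β1 * τ * ρ ^ 2 / 2 := by ring
    rw [e2] at h11
    simp only [V0]
    linarith
  by_cases hb : V0 P0 p (B * β1, μ) b0 ≤ 0
  · left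
    intro ρ h1 h2
    rw [hz]
    have h3 := key ρ h1 h2
    have h4 : ρ / b0 * V0 P0 p (B * β1, μ) b0 ≤ 0 :=
      mul_nonpos_of_nonneg_of_nonpos (by
        have : 0 < ρ := by linarith
        positivity) hb
    linarith
  · right
    push Not at hb
    intro ρ h1 h2
    have h3 := key ρ h1 h2
    have h4 : ρ / b0 * V0 P0 p (B * β1, μ) b0 ≤ V0 P0 p (B * β1, μ) b0 := by
      apply mul_le_of_le_one_left hb.le
      rw [div_le_one hb0]; linarith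
    linarith

end BF

end Crest.Agent.Kac
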